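import Vale.Agent.P352X.R.F2.B
import Vale.Agent.P352Z.Api1C
import Vale.Agent.P352Z.R.GRP.C

/-!
# P352Z, row F2: charges as operators
-/

namespace Vale.Agent.P352X.ZZ.Fp
export Vale.Agent.P352X.Fp (Std Std.chg Sy Sy.add Sy.smul Sy.sub al_comm al_cpt chg_cmp coe_sum dr_scale ex_wdg fld_add
  fld_sub fld_sum fld_zero gn_sym smooth_sim test_dens tst_dr)
end Vale.Agent.P352X.ZZ.Fp
namespace Vale.Agent.P352X.ZZ.Grp
export Vale.Agent.P352X.Grp (alg coe fld_sum test_pd ut0 vac)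
end Vale.Agent.P352X.ZZ.Grp
namespace Vale.Agent.P352X.ZZ.Pr
export Vale.Agent.P352X.Pr (add cov symm two zero)
end Vale.Agent.P352X.ZZ.Pr

set_option linter.all false

noncomputable section

open Filter Topology Set
open scoped ContDiff

namespace Vale.Agent.P352X.ZZ.Fp

open Vale.Agent.P352 Vale.Agent.P352.GF Vale.Agent.P352.BW Vale.Agent.P352.H496
open Vale.Agent.P352.H755 Vale.Agent.P352.H15
open Vale.Agent.P352.H246 (In Al)
open UniformSpace (Completion)
open Complex (I)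
open Ap

variable {D : Type*} [NormedAddCommGroup D] [InnerProductSpace ℂ D]

/-! ### symmetric operators that commute with polynomials in the fields -/

section alg

variable {Q : Theory D} {P P' Y Y' : D → D} {K W : Set V} {B : GF.Fld D} {f g : Fn}

end alg

/-! ### the stress tensor smeared with tensor test functions -/

variable {c : Ctx D} {F G : Ix → Ix → Fn} {χ Ξ χ' Ξ' φ : V → ℝ} {ξ : V → V} {K : Set V}

lemma fT (c : Ctx D) (m n : Ix) : c.Q.fld (c.T m n) := Grp.T_fld c.hT m n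

lemma Tf_sy (hF : ∀ m n, GF.IsTest (F m n)) (e : ∀ m n, bar (F m n) = F m n) : Sy (c.Tf F) :=
  fun v w => by simp only [Ctx.Tf, sum_inner, inner_sum, c.hT.herm _ _ _ _ _ (hF _ _), e]

lemma Tf_lin (hF : ∀ m n, GF.IsTest (F m n)) (hG : ∀ m n, GF.IsTest (G m n)) (a : ℂ) (v : D) :
    c.Tf (fun m n x => F m n x + a * G m n x) v = c.Tf F v + a • c.Tf G v := by
  simp only [Ctx.Tf, c.Q.lin _ _ _ _ _ (fT c _ _) (hF _ _) (hG _ _), Finset.sum_add_distrib,
    Finset.smul_sum]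

lemma Tf_loc (hF : ∀ m n, GF.IsTest (F m n)) {B : GF.Fld D} (hB : c.Q.fld B) {f : Fn}
    (hf : GF.IsTest f) (h : ∀ m n, Sep (F m n) f) (v : D) :
    c.Tf F (B f v) = B f (c.Tf F v) := by
  simp only [Ctx.Tf, fld_sum hB hf, c.Q.loc _ _ _ _ _ (c.hT.bose _ _) hB (hF _ _) hf (h _ _)]

/-- gradients carry no charge -/
lemma Tf_grad [Fact c.chg] (h : Tst φ) (hξ : IsSim 0 ξ) (v : D) :
    c.Tf (fun m n x => ((dr m φ x * (eta n * ξ x n) : ℝ) : ℂ)) v = 0 := by
  have s := smooth_sim hξ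
  obtain ⟨b, w, hw, e⟩ := hξ
  have t : ∀ n, Tst fun x => φ x * (eta n * ξ x n) := fun n => cs_mul_r h (by fun_prop)
  have d : ∀ m n, (fun x => ((dr m φ x * (eta n * ξ x n) : ℝ) : ℂ)) = fun x =>
      pd m (fun x => ((φ x * (eta n * ξ x n) : ℝ) : ℂ)) x +
        (-(eta n * w m n : ℝ) : ℂ) * (φ x : ℂ) := fun m n => by
    funext x
    have a := (h.1.differentiable (by simp) x).hasFDerivAt
    have k : HasFDerivAt (fun x : V => eta n * ξ x n)
        (eta n • ∑ k, w k n • (ContinuousLinearMap.proj k : V →L[ℝ] ℝ)) x := by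
      simp only [e, zero_mul, add_zero, mul_comm _ (w _ n)]
      exact ((HasFDerivAt.fun_sum fun k _ => (hasFDerivAt_apply k x).const_mul (w k n)).const_add
        _).const_mul _
    rw [pd_cx (a.fun_mul k).differentiableAt, dr_eq (a.fun_mul k).differentiableAt,
      (a.fun_mul k).fderiv, dr_eq a.differentiableAt]
    simp [bas]
    ring
  have z : ∑ m, ∑ n, (-(eta n * w m n : ℝ) : ℂ) • c.T m n (fun x => (φ x : ℂ)) v = 0 := by
    refine (smul_eq_zero_iff_right (two_ne_zero' ℂ)).1 ?_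
    rw [two_smul]
    nth_rw 1 [Finset.sum_comm]
    simp only [← Finset.sum_add_distrib]
    refine Finset.sum_eq_zero fun m _ => Finset.sum_eq_zero fun n _ => ?_
    rw [c.hP.symm n m _ _ (tst_sw h), ← add_smul, hw m n]
    simp
  simp only [Ctx.Tf, d, c.Q.lin _ _ _ _ _ (fT c _ _) (test_pd _ (tst_sw (t _))) (tst_sw h),
    Finset.sum_add_distrib, z, add_zero]
  rw [Finset.sum_comm]
  exact Finset.sum_eq_zero fun n _ => c.hP.conserved n _ v (tst_sw (t n))

/-- comparison of two charges -/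
lemma Tf_cmp [Fact c.chg] {ρ : ℝ} (hK : ∀ x ∈ K, ‖x‖ ≤ ρ) (h : Chg K χ Ξ) (h' : Chg K χ' Ξ') (hξ : IsSim 0 ξ) :
    ∃ G : Ix → Ix → Fn, (∀ m n, In (Jc K)ᶜ (G m n)) ∧ (∀ m n, bar (G m n) = G m n) ∧
      ∀ v, c.Tf (dens χ' Ξ' ξ) v = c.Tf (dens χ Ξ ξ) v + c.Tf G v := by
  obtain ⟨φ, p, q⟩ := chg_cmp hK h h'
  have s := smooth_sim hξ
  have i : ∀ m n, In (Jc K)ᶜ fun x =>
      (((χ' x * dr m Ξ' x - χ x * dr m Ξ x - dr m φ x) * (eta n * ξ x n) : ℝ) : ℂ) := fun m n =>
    in_cx (cs_mul_r (cs_sub (cs_sub (cs_mul_r h'.1 (smooth_dr h'.2.1 m))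
      (cs_mul_r h.1 (smooth_dr h.2.1 m))) (tst_dr p m)) (by fun_prop))
      (tsupport_mul_subset_left.trans fun z hz k =>
        notMem_tsupport_iff_eventuallyEq.2 (q m z k) hz)
  refine ⟨_, i, fun m n => bar_cx _, fun v => ?_⟩
  have t := test_dens h.1 h.2.1 hξ
  have a := Tf_lin (c := c) (fun m n => sw_lin 1 (t m n) (i m n).1)
    (fun m n => tst_sw (cs_mul_r (tst_dr p m) (show ContDiff ℝ ∞ fun x => eta n * ξ x n by
      fun_prop))) 1 v
  rw [Tf_grad p hξ, Tf_lin t fun m n => (i m n).1, smul_zero, add_zero, one_smul] at a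
  rw [← a]
  congr 1
  funext m n x
  simp only [dens]
  push_cast
  ring

/-- the stress tensor outside of the causal hull commutes with the algebra of a double cone -/
lemma far_comm (j : JC c) {y : V} {r : ℝ} (hr : 0 < r) {X : Completion D →L[ℂ] Completion D}
    (hX : X ∈ c.N (dc y r)) (hG : ∀ m n, In (Jc (closure (dc y r)))ᶜ (G m n))
    (e : ∀ m n, bar (G m n) = G m n) (v w : D) :
    inner ℂ ((c.Tf G w : D) : Completion D) (X v) = inner ℂ (w : Completion D) (X (c.Tf G v : D)) := by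
  simp only [Ctx.Tf, coe_sum, sum_inner, map_sum, inner_sum]
  refine Finset.sum_congr rfl fun m _ => Finset.sum_congr rfl fun n _ => ?_
  nth_rw 1 [← e m n]
  refine in_ind (P := fun f => inner ℂ ((c.T m n (bar f) w : D) : Completion D) (X v) =
    inner ℂ (w : Completion D) (X (c.T m n f v : D))) ?_ (fun f g a b p q => ?_) (fun z hz => ?_)
    (hG m n)
  · rw [show (bar fun _ => 0) = fun _ => 0 from funext fun _ => star_zero ℂ]
    simp [fld_zero (fT c m n), Completion.coe_zero]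
  · rw [show (bar fun x => f x + g x) = fun x => bar f x + bar g x from
      funext fun _ => star_add _ _, fld_add (fT c m n) (test_bar a.1) (test_bar b.1),
      fld_add (fT c m n) a.1 b.1, Completion.coe_add, Completion.coe_add, map_add, inner_add_left,
      inner_add_right, p, q]
  · obtain ⟨a, b, u, ha, hb, hab, k1, k2⟩ := ex_wdg hr hz
    exact ⟨_, (wdg_open a b u).mem_nhds k1, fun f hf =>
      (Grp.afs_T c.hN c.hT m n (in_mono hf inter_subset_left)).2 X
        (j.loc ha hb hab Subset.rfl k2 X hX) v w⟩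

/-! ### dilations -/

lemma usc_eq {R : ℝ} (hR : 0 < R) : Usc c.Q R R = Ug c.Q R GF.one 0 := by
  rw [Usc, Real.sqrt_mul_self hR.le, div_self hR.ne', Real.sqrt_one, sub_self, T.bst_zero]

lemma Sv_dil [Fact c.can] (g : GRP c) (hF : ∀ m n, GF.IsTest (F m n)) {R : ℝ} (hR : 0 < R) (l : ℝ) :
    c.Sv l F = Usc c.Q R R (c.Sv (l + Real.log R) fun m n x => F m n (R • x)) := by
  have e : ∀ x, sim R GF.one 0 x = R • x := fun x => by
    funext n
    simp [sim, GF.one, bas]
  simp only [usc_eq hR, Ctx.Sv, Ctx.Sf, coe_sum, map_sum, g.coe _ _ _ _ hR H496.isLor_one]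
  refine Finset.sum_congr rfl fun m _ => Finset.sum_congr rfl fun n _ => ?_
  have := c.hC.fam.cov2 l m n R GF.one 0 _ c.Q.vac hR H496.isLor_one (hF m n)
  rw [c.Q.U_vac _ _ _ hR H496.isLor_one] at this
  simp [Ctx.Sl, this, e, GF.one, bas, apply_ite Complex.ofReal]

/-- the standard charges of the vacuum tend to zero weakly -/
lemma std_null [Fact c.can] (g : GRP c) (hb : BAS c) (h : Std χ Ξ) (hξ : IsSim 0 ξ)
    (u : Completion D) :
    Tendsto (fun l : ℝ => inner ℂ (c.Sv l (dens (fun z => χ ((Real.exp (-l))⁻¹ • z))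
      (fun z => Ξ ((Real.exp (-l))⁻¹ • z)) ξ)) u) atBot (𝓝 0) := by
  have hξ' := hξ
  obtain ⟨b, w, hw, e⟩ := hξ'
  have t0 := test_dens h.1 h.2.1 (ξ := fun z n => ∑ m, z m * w m n) ⟨0, w, hw, by simp⟩
  have t1 := test_dens h.1 h.2.1 (ξ := fun _ => b) ⟨b, 0, by simp, by simp⟩
  have p : ∀ l : ℝ, 0 < Real.exp (-l) := fun n => by positivity
  have q := Real.tendsto_exp_atTop.comp tendsto_neg_atBot_atTop
  have l : Tendsto (fun l : ℝ => (((Real.exp (-l))⁻¹ : ℝ) : ℂ)) atBot (𝓝 0) := by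
    simpa only [Complex.ofReal_zero, Function.comp_def] using
      (tendsto_inv_atTop_zero.comp q).ofReal
  have k := hb.wn ℝ atBot _ _ (fun _ => 0) _ _ u (fun n => ⟨p n, p n⟩) (.inl q)
    ((tendsto_const_nhds (x := c.Sv 0 (dens χ Ξ fun z n => ∑ m, z m * w m n))).add
      (l.smul_const (c.Sv 0 (dens χ Ξ fun _ => b)))) (by
        simp only [zero_smul, add_zero, Ctx.Sv, Ctx.Sf, om, Completion.inner_coe, inner_sum,
          (c.hC.fam.p2l 0).perp _ _ _ (t0 _ _), Finset.sum_const_zero])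
  refine k.congr fun n => ?_
  have hc := h.chg (K := ∅) (ρ := 0) (by simp) (p n) (p n).le
  have a := Tf_lin (c := c.toS 0) t0 t1 ((Real.exp (-n))⁻¹ : ℝ) c.Q.vac
  rw [g.ut0, ContinuousLinearMap.one_apply, Sv_dil g (test_dens hc.1 hc.2.1 hξ) (p n),
    Real.log_exp, add_neg_cancel, Ctx.Sv, Ctx.Sv, Ctx.Sv, ← Completion.coe_smul,
    ← Completion.coe_add]
  refine congrArg (fun v : D => inner ℂ (Usc c.Q _ _ v) u) (a.symm.trans ?_)
  refine congrArg (fun F => c.Sf 0 F c.Q.vac) ?_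
  funext m k x
  have := (p n).ne'
  simp only [dens, dr_scale h.2.1, inv_smul_smul₀ this, e, Pi.smul_apply, smul_eq_mul, mul_assoc,
    ← Finset.mul_sum]
  rw [← Complex.ofReal_mul, ← Complex.ofReal_add]
  congr 1
  field_simp
  ring

end Vale.Agent.P352X.ZZ.Fp
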